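import Vale.Agent.P273.H97.VertGen
import Vale.Agent.P273.H95.Wall
import Vale.Agent.P273.H828.AnnDefs

/-!
# P273, crew ASY0, (T3e): the vertical part of the cut-off form near the theta configuration

`b = th d`, `|d k| ≤ 1/16`; the vertical part of the flat form is `Re ((a.1 + a.2 x) dx / y)`.
-/

namespace Vale.Agent.P273.H97

open scoped ContDiff Topology
open Set Filter MeasureTheory Finset
open H214 H604
open H578 (Hs Hs_le Hs_nonneg Hs_pos Off)
open H828 (th)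
open H95 (ctr)

noncomputable section

/-- the pair of a root -/
def pk (j : Fin 6) : Fin 3 := ⟨j.1 / 2, by omega⟩
/-- the other root of the pair -/
def par (j : Fin 6) : Fin 6 := ⟨if j.1 % 2 = 0 then j.1 + 1 else j.1 - 1, by split_ifs <;> omega⟩
/-- the sign of a root in its pair -/
def sj (j : Fin 6) : ℂ := if j.1 % 2 = 0 then -1 else 1

theorem par_ne (j : Fin 6) : par j ≠ j := by fin_cases j <;> decide

theorem norm_sj (j : Fin 6) : ‖sj j‖ = 1 := by unfold sj; split_ifs <;> simp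

theorem sj_par (j : Fin 6) : sj (par j) = -sj j := by
  fin_cases j <;> simp [sj, par]

theorem pk_par (j : Fin 6) : pk (par j) = pk j := by fin_cases j <;> rfl

theorem th_eq (d : Fin 3 → ℂ) (j : Fin 6) : th d j = ctr (pk j) + sj j * d (pk j) := by
  fin_cases j <;> simp [th, ctr, pk, sj] <;> ring

theorem pk_eq_iff {i j : Fin 6} : pk i = pk j ↔ i = j ∨ i = par j := by
  revert i j; decide

theorem norm_ctr_sub {k l : Fin 3} (h : k ≠ l) : 2 ≤ ‖ctr k - ctr l‖ := by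
  have h1 : ctr k - ctr l = ((2 * ((k : ℕ) - (l : ℕ) : ℝ) : ℝ) : ℂ) := by
    unfold ctr; push_cast; ring
  rw [h1, Complex.norm_real, Real.norm_eq_abs]
  fin_cases k <;> fin_cases l <;> first | (exact absurd rfl h) | norm_num

theorem norm_ctr_le (k : Fin 3) : ‖ctr k‖ ≤ 11 / 2 := by
  have h1 : ctr k = ((2 * (k : ℕ) + 3 / 2 : ℝ) : ℂ) := by unfold ctr; push_cast; ring
  rw [h1, Complex.norm_real, Real.norm_eq_abs]
  fin_cases k <;> norm_num

variable {d : Fin 3 → ℂ}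

theorem norm_th_sub (d : Fin 3 → ℂ) (j : Fin 6) : ‖th d j - ctr (pk j)‖ = ‖d (pk j)‖ := by
  rw [th_eq, add_sub_cancel_left, norm_mul, norm_sj, one_mul]

theorem norm_par_sub (d : Fin 3 → ℂ) (j : Fin 6) : ‖th d (par j) - th d j‖ = 2 * ‖d (pk j)‖ := by
  rw [th_eq, th_eq, pk_par, sj_par]
  have : ctr (pk j) + -sj j * d (pk j) - (ctr (pk j) + sj j * d (pk j)) =
      -2 * (sj j * d (pk j)) := by ring
  rw [this, norm_mul, norm_mul, norm_sj, norm_neg]
  simp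

theorem norm_th_le (hd : ∀ k, ‖d k‖ ≤ 1 / 16) (j : Fin 6) : ‖th d j‖ ≤ 6 := by
  have h1 := norm_th_sub d j
  have h2 := norm_ctr_le (pk j)
  have h3 := norm_sub_norm_le (th d j) (ctr (pk j))
  linarith [hd (pk j)]

/-- a root outside of the pair `k` is far from a point near the centre `k`, or closer to it than to
the other centres -/
theorem far_root (hd : ∀ k, ‖d k‖ ≤ 1 / 16) {k : Fin 3} {x : ℂ}
    (hk : ∀ l, ‖x - ctr k‖ ≤ ‖x - ctr l‖) {j : Fin 6} (hj : pk j ≠ k) :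
    (1 + ‖x‖) / 16 ≤ ‖x - th d j‖ := by
  have h1 := norm_th_sub d j
  have h2 := hd (pk j)
  have h3 : ‖x - ctr (pk j)‖ ≤ ‖x - th d j‖ + ‖th d j - ctr (pk j)‖ := by
    have := norm_add_le (x - th d j) (th d j - ctr (pk j))
    rwa [sub_add_sub_cancel] at this
  have h4 := norm_ctr_sub hj
  have h5 : ‖ctr (pk j) - ctr k‖ ≤ ‖x - ctr (pk j)‖ + ‖x - ctr k‖ := by
    have := norm_sub_le (x - ctr k) (x - ctr (pk j))
    rw [sub_sub_sub_cancel_left] at this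
    linarith
  have h6 := hk (pk j)
  have h7 : 15 / 16 ≤ ‖x - th d j‖ := by linarith
  rcases le_total ‖x‖ 7 with h8 | h8
  · linarith
  · have h9 := norm_th_le hd j
    have h10 := norm_sub_norm_le x (th d j)
    linarith

theorem exists_nearest (x : ℂ) : ∃ k : Fin 3, ∀ l, ‖x - ctr k‖ ≤ ‖x - ctr l‖ := by
  obtain ⟨k, _, hk⟩ := Finset.exists_min_image (Finset.univ : Finset (Fin 3))
    (fun l => ‖x - ctr l‖) ⟨0, Finset.mem_univ _⟩
  exact ⟨k, fun l => hk l (Finset.mem_univ _)⟩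

theorem nearest_of_le {x : ℂ} {k : Fin 3} (h : ‖x - ctr k‖ ≤ 1 / 4) (l : Fin 3) :
    ‖x - ctr k‖ ≤ ‖x - ctr l‖ := by
  rcases eq_or_ne l k with rfl | hl
  · exact le_rfl
  · have h4 := norm_ctr_sub hl
    have h5 : ‖ctr l - ctr k‖ ≤ ‖x - ctr l‖ + ‖x - ctr k‖ := by
      have := norm_sub_le (x - ctr k) (x - ctr l)
      rw [sub_sub_sub_cancel_left] at this
      linarith
    linarith

theorem prod_six (k : Fin 3) (s t : ℝ) :
    ∏ j : Fin 6, (if pk j = k then s else t) = s ^ 2 * t ^ 4 := by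
  rw [Fin.prod_univ_six]
  fin_cases k <;> simp [pk] <;> ring

/-- lower bound of `|y|`: two numbers `s` below the distances to the roots of the pair -/
theorem le_norm_y (hd : ∀ k, ‖d k‖ ≤ 1 / 16) {k : Fin 3} {x y : ℂ}
    (hk : ∀ l, ‖x - ctr k‖ ≤ ‖x - ctr l‖) (hy : y ^ 2 = ff (th d, x)) {s : ℝ} (hs : 0 ≤ s)
    (h : ∀ j, pk j = k → s ≤ ‖x - th d j‖) : s * ((1 + ‖x‖) / 16) ^ 2 ≤ ‖y‖ := by
  have h1 : ‖y‖ ^ 2 = ∏ j, ‖x - th d j‖ := by rw [← norm_pow, hy, ff, norm_prod]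
  have h2 : s ^ 2 * ((1 + ‖x‖) / 16) ^ 4 ≤ ‖y‖ ^ 2 := by
    rw [h1, ← prod_six k]
    refine Finset.prod_le_prod (fun j _ => ?_) fun j _ => ?_
    · split_ifs <;> positivity
    · split_ifs with h3
      · exact h j h3
      · exact far_root hd hk h3
  refine le_of_sq_le_sq ?_ (norm_nonneg y)
  calc _ = s ^ 2 * ((1 + ‖x‖) / 16) ^ 4 := by ring
    _ ≤ _ := h2

/-- the scale is at most `|y|` -/
theorem Hs_le_y (hd : ∀ k, ‖d k‖ ≤ 1 / 16) {x y : ℂ} (hy : y ^ 2 = ff (th d, x)) (hy0 : y ≠ 0) :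
    Hs (th d) x * ((1 + ‖x‖) / 16) ^ 2 ≤ ‖y‖ := by
  obtain ⟨k, hk⟩ := exists_nearest x
  have hoff : Off (th d) x := by
    refine ff_ne_zero_iff.1 (?_ : ff (th d, x) ≠ 0)
    rw [← hy]; exact pow_ne_zero _ hy0
  exact le_norm_y hd hk hy (Hs_nonneg _ _) fun j _ => Hs_le hoff j

/-- active roots: the pair is near -/
theorem active_near (hb : th d ∈ Cf) {x : ℂ} {j : Fin 6}
    (h : 32 * ‖x - th d j‖ ^ 2 ≤ hh (th d) j) : 5 * ‖x - th d j‖ ≤ 2 * ‖d (pk j)‖ := by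
  have h1 := hh_le hb (par_ne j)
  rw [norm_par_sub] at h1
  refine le_of_sq_le_sq ?_ (by positivity)
  nlinarith [sq_nonneg ‖x - th d j‖]

theorem active_ctr (hb : th d ∈ Cf) {x : ℂ} {j : Fin 6}
    (h : 32 * ‖x - th d j‖ ^ 2 ≤ hh (th d) j) :
    ‖x - ctr (pk j)‖ ≤ 2 * ‖d (pk j)‖ ∧ ‖d (pk j)‖ ≤ 2 * ‖x - ctr (pk j)‖ := by
  have h1 := active_near hb h
  have h2 := norm_th_sub d j
  have h3 : ‖x - ctr (pk j)‖ ≤ ‖x - th d j‖ + ‖th d j - ctr (pk j)‖ := by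
    have := norm_add_le (x - th d j) (th d j - ctr (pk j))
    rwa [sub_add_sub_cancel] at this
  have h4 : ‖th d j - ctr (pk j)‖ ≤ ‖x - th d j‖ + ‖x - ctr (pk j)‖ := by
    have := norm_sub_le (x - ctr (pk j)) (x - th d j)
    rw [sub_sub_sub_cancel_left] at this
    linarith
  constructor <;> linarith [norm_nonneg (d (pk j))]

theorem active_ratio (hd : ∀ k, ‖d k‖ ≤ 1 / 16) (hb : th d ∈ Cf) {x y : ℂ}
    (hy : y ^ 2 = ff (th d, x)) (hy0 : y ≠ 0) {j : Fin 6}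
    (h : 32 * ‖x - th d j‖ ^ 2 ≤ hh (th d) j) : ‖x - th d j‖ / ‖y‖ ≤ 256 := by
  have h1 := active_near hb h
  have h2 := (active_ctr hb h).1
  have h3 := hd (pk j)
  have h4 : ‖x - ctr (pk j)‖ ≤ 1 / 4 := by linarith
  have h5 := le_norm_y hd (nearest_of_le h4) hy (norm_nonneg (x - th d j)) fun i hi => by
    rcases pk_eq_iff.1 hi with rfl | rfl
    · exact le_rfl
    · have h6 := norm_par_sub d j
      have h7 : ‖th d (par j) - th d j‖ ≤ ‖x - th d j‖ + ‖x - th d (par j)‖ := by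
        have := norm_sub_le (x - th d j) (x - th d (par j))
        rwa [sub_sub_sub_cancel_left] at this
      linarith [norm_nonneg (x - th d j)]
  rw [div_le_iff₀ (norm_pos_iff.2 hy0)]
  have h8 : (1 / 16 : ℝ) ^ 2 ≤ ((1 + ‖x‖) / 16) ^ 2 := by
    have := norm_nonneg x
    gcongr
    linarith
  nlinarith [mul_le_mul_of_nonneg_left h8 (norm_nonneg (x - th d j))]

/-- bound of the function cut off at a root -/
theorem norm_EWc_comb_le {b : Bs} {j : Fin 6} {x : ℂ} (h : (b, x) ∈ Dj j) (y : ℂ) (a : ℂ × ℂ)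
    {M : ℝ} (hM : ∀ r ∈ Icc (0 : ℝ) 1, ‖a.1 + a.2 * seg j (b, x) r‖ ≤ M) :
    ‖a.1 * EWc 0 b j x y + a.2 * EWc 1 b j x y‖ ≤ ‖x - b j‖ / ‖y‖ * (32 * M) := by
  have hi : ∀ k, IntervalIntegrable (fun r : ℝ => intg k j ((b, x), r)) volume 0 1 := by
    intro k
    refine ContinuousOn.intervalIntegrable ?_
    rw [Set.uIcc_of_le zero_le_one]
    have h1 : Continuous fun r : ℝ => (((b, x), r) : (Bs × ℂ) × ℝ) := by fun_prop
    exact (contDiffOn_intg k j).continuousOn.comp h1.continuousOn fun r hr => seg_mem h hr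
  have h1 : a.1 * EWc 0 b j x y + a.2 * EWc 1 b j x y =
      (x - b j) / y * (2 * ∫ r in (0 : ℝ)..1,
        Pj j (b, x) * (a.1 * intg 0 j ((b, x), r) + a.2 * intg 1 j ((b, x), r))) := by
    rw [intervalIntegral.integral_const_mul, intervalIntegral.integral_add
      ((hi 0).const_mul _) ((hi 1).const_mul _), intervalIntegral.integral_const_mul,
      intervalIntegral.integral_const_mul]
    unfold EWc Qj
    ring
  have h2 : ‖∫ r in (0 : ℝ)..1, Pj j (b, x) *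
      (a.1 * intg 0 j ((b, x), r) + a.2 * intg 1 j ((b, x), r))‖ ≤ 16 * M * |1 - 0| := by
    refine intervalIntegral.norm_integral_le_of_norm_le_const fun r hr => ?_
    rw [Set.uIoc_of_le zero_le_one] at hr
    have hr' : r ∈ Icc (0 : ℝ) 1 := ⟨hr.1.le, hr.2⟩
    have h3 : ‖Pj j (b, x)‖ ≤ 16 * ‖Pj j (b, seg j (b, x) r)‖ := by
      refine (sq_le_sq₀ (norm_nonneg _) (by positivity)).1 ?_
      rw [mul_pow]
      have h4 := norm_Pj_sq_le h
      have h5 := le_norm_Pj_sq (seg_mem h hr')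
      nlinarith
    have h8 : ‖Pj j (b, seg j (b, x) r)‖ ≠ 0 := norm_ne_zero_iff.2 (Pj_ne_zero _ _)
    have h9 : a.1 * intg 0 j ((b, x), r) + a.2 * intg 1 j ((b, x), r) =
        (a.1 + a.2 * seg j (b, x) r) / Pj j (b, seg j (b, x) r) := by
      unfold intg
      simp only [pow_zero, pow_one]
      ring
    rw [h9, norm_mul, norm_div]
    have h10 := hM r hr'
    calc _ ≤ (16 * ‖Pj j (b, seg j (b, x) r)‖) * (M / ‖Pj j (b, seg j (b, x) r)‖) := by
          have : 0 ≤ M := (norm_nonneg _).trans h10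
          gcongr
      _ = 16 * M := by field_simp
  rw [h1, norm_mul, norm_div, norm_mul]
  have h11 : ‖(2 : ℂ)‖ = 2 := by simp
  rw [h11]
  simp only [sub_zero, abs_one, mul_one] at h2
  exact mul_le_mul_of_nonneg_left (by linarith) (by positivity)

variable {η : Bs → ℂ → ℂ → (Bs × ℂ →L[ℝ] ℝ)} {A : Bs → (ℂ × ℂ →L[ℝ] ℝ)} {O : Set Bs}

/-- the constant -/
def KV : ℝ := 2048 + 6 * (Cs * (128 * (256 * 32))) + Cs * 256

theorem KV_pos : 0 < KV := by have := Cs_pos; unfold KV; positivity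

/-- **the vertical bound, parametric form** -/
theorem vert_param (hF : FlatOn O η A) (hd : ∀ k, ‖d k‖ ≤ 1 / 16) (hb : th d ∈ O) {a : ℂ × ℂ}
    (hA : ∀ u v, A (th d) (u, v) = (a.1 * u + a.2 * v).re) {x y : ℂ}
    (hy : y ^ 2 = ff (th d, x)) (hy0 : y ≠ 0) {M : ℝ} (hM : 0 ≤ M)
    (m1 : ‖a.1 + a.2 * x‖ ≤ M * (1 + ‖x‖))
    (m2 : ∀ j, 32 * ‖x - th d j‖ ^ 2 ≤ hh (th d) j → ∀ r ∈ Icc (0 : ℝ) 1,
      ‖a.1 + a.2 * seg j (th d, x) r‖ ≤ M)
    (m3 : 8 ≤ ‖x‖ → ‖a.1‖ + ‖a.2‖ ≤ M) (ζ : ℂ) :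
    |etaP η A (th d) x y (0, ζ)| ≤ KV * M * (‖ζ‖ / Hs (th d) x) := by
  have hC : th d ∈ Cf := hF.sub hb
  have hoff : Off (th d) x := by
    refine ff_ne_zero_iff.1 (?_ : ff (th d, x) ≠ 0)
    rw [← hy]; exact pow_ne_zero _ hy0
  have hH := Hs_pos hoff
  have hyp : 0 < ‖y‖ := norm_pos_iff.2 hy0
  have hz := norm_nonneg ζ
  have hx := norm_nonneg x
  have key := norm_etaP_vert_le hF hb hy hy0 ζ
  rw [Real.norm_eq_abs] at key
  refine key.trans ?_
  -- first summand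
  have hHy := Hs_le_y hd hy hy0
  have t1 : 8 * ‖A (th d) (ζ / y, x * ζ / y)‖ ≤ 2048 * M * (‖ζ‖ / Hs (th d) x) := by
    rw [hA, Real.norm_eq_abs]
    have e1 : a.1 * (ζ / y) + a.2 * (x * ζ / y) = (a.1 + a.2 * x) * (ζ / y) := by ring
    rw [e1]
    have e2 : |((a.1 + a.2 * x) * (ζ / y)).re| ≤ M * (1 + ‖x‖) * (‖ζ‖ / ‖y‖) := by
      refine (Complex.abs_re_le_norm _).trans ?_
      rw [norm_mul, norm_div]
      gcongr
    have e3 : (1 + ‖x‖) * (‖ζ‖ / ‖y‖) ≤ 256 * (‖ζ‖ / Hs (th d) x) := by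
      rw [mul_div_assoc', mul_div_assoc', div_le_div_iff₀ hyp hH]
      have e4 : (1 + ‖x‖) * Hs (th d) x ≤ 256 * ‖y‖ := by
        have e5 : (1 + ‖x‖) * Hs (th d) x ≤ 256 * (Hs (th d) x * ((1 + ‖x‖) / 16) ^ 2) := by
          have e6 : (1 + ‖x‖) * 1 ≤ (1 + ‖x‖) * (1 + ‖x‖) := by gcongr; linarith
          nlinarith
        linarith
      nlinarith
    nlinarith [mul_le_mul_of_nonneg_left e3 hM]
  -- the summands at the roots
  have t2 : ∀ j, (if 32 * ‖x - th d j‖ ^ 2 ≤ hh (th d) j then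
      Cs * (128 * (‖x - th d j‖ * ‖ζ‖) / hh (th d) j) * ‖A (th d) (EWv (th d) j x y)‖ else 0) ≤
      Cs * (128 * (256 * 32)) * M * (‖ζ‖ / Hs (th d) x) := by
    intro j
    have hr : 0 ≤ Cs * (128 * (256 * 32)) * M * (‖ζ‖ / Hs (th d) x) := by
      have := Cs_pos; positivity
    split_ifs with h
    · have hpos := hh_pos hC j
      have h4 : 4 * ‖x - th d j‖ ^ 2 < hh (th d) j := by nlinarith [sq_nonneg ‖x - th d j‖]
      have hD : (th d, x) ∈ Dj j := mem_Dj_of_hh hC h4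
      have e1 : ‖A (th d) (EWv (th d) j x y)‖ ≤ 256 * (32 * M) := by
        rw [EWv, hA, Real.norm_eq_abs]
        refine (Complex.abs_re_le_norm _).trans ((norm_EWc_comb_le hD y a (m2 j h)).trans ?_)
        exact mul_le_mul_of_nonneg_right (active_ratio hd hC hy hy0 h) (by positivity)
      have e2 : ‖x - th d j‖ * ‖ζ‖ / hh (th d) j ≤ ‖ζ‖ / Hs (th d) x := by
        have e3 := Hs_le hoff j
        have e4 : 0 < ‖x - th d j‖ := hoff.pos j
        rw [div_le_div_iff₀ hpos hH]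
        nlinarith [mul_le_mul_of_nonneg_left e3 (mul_nonneg e4.le hz)]
      have e5 : 128 * (‖x - th d j‖ * ‖ζ‖) / hh (th d) j ≤ 128 * (‖ζ‖ / Hs (th d) x) := by
        rw [mul_div_assoc]; linarith
      calc _ ≤ Cs * (128 * (‖ζ‖ / Hs (th d) x)) * (256 * (32 * M)) := by
            have := Cs_pos
            gcongr
        _ = _ := by ring
    · exact hr
  -- the summand at infinity
  have t3 : (if Rr (th d) ≤ ‖x‖ ∧ ‖x‖ ^ 2 ≤ 2 * Rr (th d) ^ 2 then
      Cs * (2 * (‖x‖ * ‖ζ‖) / Rr (th d) ^ 2) * ‖A (th d) (EIv (th d) x y)‖ else 0) ≤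
      Cs * 256 * M * (‖ζ‖ / Hs (th d) x) := by
    have hr : 0 ≤ Cs * 256 * M * (‖ζ‖ / Hs (th d) x) := by
      have := Cs_pos; positivity
    split_ifs with h
    · have hR := eight_le_Rr (th d)
      have h8 : 8 ≤ ‖x‖ := hR.trans h.1
      have hx0 : x ≠ 0 := by rintro rfl; rw [norm_zero] at h8; linarith
      have hD : (th d, x⁻¹) ∈ DI := mem_DI_inv (two_mul_norm_lt h.1)
      have e1 : ‖A (th d) (EIv (th d) x y)‖ ≤ M := by
        rw [EIv, hA, Real.norm_eq_abs]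
        refine (Complex.abs_re_le_norm _).trans ((norm_add_le _ _).trans ?_)
        rw [norm_mul, norm_mul]
        have f0 := norm_EIc_le (k := 0) (by norm_num) hx0 hD (y := y) hy
        have f1 := norm_EIc_le (k := 1) le_rfl hx0 hD (y := y) hy
        have g0 : (8 : ℝ) / ‖x‖ ^ (2 - 0) ≤ 1 := by
          rw [div_le_one (by positivity)]
          simp only [Nat.sub_zero]
          nlinarith
        have g1 : (8 : ℝ) / ‖x‖ ^ (2 - 1) ≤ 1 := by
          rw [div_le_one (by positivity)]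
          simpa using h8
        have := m3 h8
        nlinarith [norm_nonneg a.1, norm_nonneg a.2, norm_nonneg (EIc 0 (th d) x y),
          norm_nonneg (EIc 1 (th d) x y), mul_le_mul_of_nonneg_left (f0.trans g0)
            (norm_nonneg a.1), mul_le_mul_of_nonneg_left (f1.trans g1) (norm_nonneg a.2)]
      have e2 : 2 * (‖x‖ * ‖ζ‖) / Rr (th d) ^ 2 ≤ 256 * (‖ζ‖ / Hs (th d) x) := by
        have e3 := Hs_le hoff 0
        have e4 : ‖x - th d 0‖ ≤ ‖x‖ + ‖th d 0‖ := norm_sub_le _ _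
        have e5 := norm_th_le hd 0
        have e6 : Hs (th d) x ≤ 2 * ‖x‖ := by linarith
        have hRp : 0 < Rr (th d) := Rr_pos _
        rw [mul_div_assoc', div_le_div_iff₀ (by positivity) hH]
        have e7 : ‖x‖ * Hs (th d) x ≤ 4 * Rr (th d) ^ 2 := by nlinarith [h.2]
        nlinarith [mul_le_mul_of_nonneg_left e7 hz]
      calc _ ≤ Cs * (256 * (‖ζ‖ / Hs (th d) x)) * M := by
            have := Cs_pos
            gcongr
        _ = _ := by ring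
    · exact hr
  have t4 := Finset.sum_le_sum fun j (_ : j ∈ (Finset.univ : Finset (Fin 6))) => t2 j
  rw [Finset.sum_const, Finset.card_univ, Fintype.card_fin, nsmul_eq_mul] at t4
  unfold KV
  calc _ ≤ 2048 * M * (‖ζ‖ / Hs (th d) x) +
        ((6 : ℕ) : ℝ) * (Cs * (128 * (256 * 32)) * M * (‖ζ‖ / Hs (th d) x)) +
        Cs * 256 * M * (‖ζ‖ / Hs (th d) x) := add_le_add (add_le_add t1 t4) t3
    _ = _ := by push_cast; ring

theorem norm_seg_le {b : Bs} {j : Fin 6} {x c : ℂ} {R : ℝ} (h1 : ‖b j - c‖ ≤ R) (h2 : ‖x - c‖ ≤ R)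
    {r : ℝ} (hr : r ∈ Icc (0 : ℝ) 1) : ‖seg j (b, x) r - c‖ ≤ R := by
  have h5 : seg j (b, x) r - c =
      ((1 - r ^ 2 : ℝ) : ℂ) * (b j - c) + ((r ^ 2 : ℝ) : ℂ) * (x - c) := by
    unfold seg; push_cast; ring
  have h6 : (0 : ℝ) ≤ r ^ 2 := sq_nonneg r
  have h7 : r ^ 2 ≤ 1 := pow_le_one₀ hr.1 hr.2
  rw [h5]
  calc _ ≤ ‖((1 - r ^ 2 : ℝ) : ℂ) * (b j - c)‖ + ‖((r ^ 2 : ℝ) : ℂ) * (x - c)‖ := norm_add_le _ _
    _ = (1 - r ^ 2) * ‖b j - c‖ + r ^ 2 * ‖x - c‖ := by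
        rw [norm_mul, norm_mul, Complex.norm_real, Complex.norm_real, Real.norm_eq_abs,
          Real.norm_eq_abs, abs_of_nonneg h6, abs_of_nonneg (by linarith)]
    _ ≤ (1 - r ^ 2) * R + r ^ 2 * R := by
        gcongr
    _ = R := by ring

/-- **(T3e), everywhere** -/
theorem vert_all (hF : FlatOn O η A) (hd : ∀ k, ‖d k‖ ≤ 1 / 16) (hb : th d ∈ O) {a : ℂ × ℂ}
    (hA : ∀ u v, A (th d) (u, v) = (a.1 * u + a.2 * v).re) {x y : ℂ}
    (hy : y ^ 2 = ff (th d, x)) (hy0 : y ≠ 0) (ζ : ℂ) :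
    |etaP η A (th d) x y (0, ζ)| ≤ 8 * KV * (‖a.1‖ + ‖a.2‖) * (‖ζ‖ / Hs (th d) x) := by
  have hC : th d ∈ Cf := hF.sub hb
  have n1 := norm_nonneg a.1
  have n2 := norm_nonneg a.2
  have h := vert_param hF hd hb hA hy hy0 (M := 8 * (‖a.1‖ + ‖a.2‖)) (by positivity) ?_ ?_ ?_ ζ
  · refine h.trans (le_of_eq ?_); ring
  · have h1 : ‖a.1 + a.2 * x‖ ≤ ‖a.1‖ + ‖a.2‖ * ‖x‖ := by
      refine (norm_add_le _ _).trans ?_; rw [norm_mul]
    nlinarith [norm_nonneg x, mul_nonneg n1 (norm_nonneg x), mul_nonneg n2 (norm_nonneg x)]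
  · intro j hj r hr
    have h1 := (active_ctr hC hj).1
    have h2 := hd (pk j)
    have h3 := norm_ctr_le (pk j)
    have h4 : ‖th d j - 0‖ ≤ 7 := by rw [sub_zero]; linarith [norm_th_le hd j]
    have h5 : ‖x - 0‖ ≤ 7 := by
      rw [sub_zero]
      have := norm_sub_norm_le x (ctr (pk j))
      linarith
    have h6 := norm_seg_le h4 h5 hr
    rw [sub_zero] at h6
    calc _ ≤ ‖a.1‖ + ‖a.2‖ * ‖seg j (th d, x) r‖ := by
          refine (norm_add_le _ _).trans ?_; rw [norm_mul]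
      _ ≤ ‖a.1‖ + ‖a.2‖ * 7 := by gcongr
      _ ≤ _ := by linarith
  · intro _; linarith

/-- **(T3e), near a centre** -/
theorem vert_near (hF : FlatOn O η A) (hd : ∀ k, ‖d k‖ ≤ 1 / 16) (hb : th d ∈ O) {a : ℂ × ℂ}
    (hA : ∀ u v, A (th d) (u, v) = (a.1 * u + a.2 * v).re) {x y : ℂ}
    (hy : y ^ 2 = ff (th d, x)) (hy0 : y ≠ 0) {k : Fin 3} (hx : ‖x - ctr k‖ ≤ 1 / 4) (ζ : ℂ) :
    |etaP η A (th d) x y (0, ζ)| ≤
      KV * (‖a.1 + a.2 * ctr k‖ + 2 * ‖a.2‖ * ‖x - ctr k‖) * (‖ζ‖ / Hs (th d) x) := by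
  have hC : th d ∈ Cf := hF.sub hb
  have n2 := norm_nonneg a.2
  have hk := nearest_of_le hx
  refine vert_param hF hd hb hA hy hy0 (by positivity) ?_ ?_ ?_ ζ
  · have e : a.1 + a.2 * x = (a.1 + a.2 * ctr k) + a.2 * (x - ctr k) := by ring
    have h1 : ‖a.1 + a.2 * x‖ ≤ ‖a.1 + a.2 * ctr k‖ + ‖a.2‖ * ‖x - ctr k‖ := by
      rw [e]; refine (norm_add_le _ _).trans ?_; rw [norm_mul]
    have h2 : 0 ≤ ‖a.2‖ * ‖x - ctr k‖ := by positivity
    have h3 := norm_nonneg (a.1 + a.2 * ctr k)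
    have h4 := norm_nonneg x
    nlinarith
  · intro j hj r hr
    have h1 := active_ctr hC hj
    have h2 := hd (pk j)
    have hjk : pk j = k := by
      by_contra hne
      have h3 := far_root hd hk hne
      have h4 := active_near hC hj
      have h6 : ‖x - th d j‖ < 1 / 16 := by linarith [norm_nonneg (x - th d j)]
      linarith [norm_nonneg x]
    rw [hjk] at h1
    have h3 : ‖th d j - ctr k‖ ≤ 2 * ‖x - ctr k‖ := by
      rw [← hjk, norm_th_sub, hjk]; exact h1.2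
    have h3' : ‖x - ctr k‖ ≤ 2 * ‖x - ctr k‖ := by linarith [norm_nonneg (x - ctr k)]
    have h4 := norm_seg_le h3 h3' hr
    have e : a.1 + a.2 * seg j (th d, x) r =
      (a.1 + a.2 * ctr k) + a.2 * (seg j (th d, x) r - ctr k) := by ring
    rw [e]
    calc _ ≤ ‖a.1 + a.2 * ctr k‖ + ‖a.2‖ * ‖seg j (th d, x) r - ctr k‖ := by
          refine (norm_add_le _ _).trans ?_; rw [norm_mul]
      _ ≤ ‖a.1 + a.2 * ctr k‖ + ‖a.2‖ * (2 * ‖x - ctr k‖) := by gcongr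
      _ = _ := by ring
  · intro h8
    exfalso
    have h3 := norm_ctr_le k
    have := norm_sub_norm_le x (ctr k)
    linarith

end

end Vale.Agent.P273.H97
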