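import Vale.Agent.P273.H97.VertTh
import Vale.Agent.P273.H630.VertIn
import Vale.Agent.P273.H182.DomF
import Vale.Agent.P273.H214.OneZ

/-!
# P273, ASY0 (T3e): `Vert (oneOf F)` from the residues of the flat family at the theta curve
-/

namespace Vale.Agent.P273.H97

open Set Filter Finset
open Vale.Agent.P273.H214 (Bs ff FlatFam oneOf oneOf_false)
open Vale.Agent.P273.H95 (ctr IsCl)
open Vale.Agent.P273.H562 (rootsL bt)
open Vale.Agent.P273.H630 (E3 I0 af0 eps0 cc sep_ctr ell0 Gf)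
open Vale.Agent.P273.H803 (BaseOk Vert)
open Vale.Agent.P273.H517 (hn ps)
open Vale.Agent.P273.H598 (rz rz_sq)

noncomputable section

/-! ### the coefficients -/

theorem norm_af0_le {ε : E3} (h : ‖ε‖ < I0.rad) (c : E3) (m : Fin 2) :
    ‖af0 ε c m‖ ≤ I0.bd * ‖c‖ :=
  (norm_le_pi_norm (af0 ε c) m).trans (((af0 ε).le_opNorm c).trans
    (mul_le_mul_of_nonneg_right (I0.norm_af_le h.le) (norm_nonneg _)))

theorem norm_ctr_sub_le (k l : Fin 3) : ‖ctr k - ctr l‖ ≤ 4 := by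
  rw [H630.norm_ctr_sub]
  have hk : (k : ℕ) ≤ 2 := by omega
  have hl : (l : ℕ) ≤ 2 := by omega
  have hk' : ((k : ℕ) : ℝ) ≤ 2 := by exact_mod_cast hk
  have hl' : ((l : ℕ) : ℝ) ≤ 2 := by exact_mod_cast hl
  have hk0 : (0 : ℝ) ≤ ((k : ℕ) : ℝ) := Nat.cast_nonneg _
  have hl0 : (0 : ℝ) ≤ ((l : ℕ) : ℝ) := Nat.cast_nonneg _
  have : |((k : ℕ) : ℝ) - ((l : ℕ) : ℝ)| ≤ 2 := by
    rw [abs_le]; constructor <;> linarith
  linarith

theorem norm_ps_ctr {ε : E3} {k l : Fin 3} (h : l ≠ k) (hε : ‖ε l‖ ≤ 1) :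
    1 / 5 ≤ ‖ps ctr ε l (ctr k)‖ := by
  have h0 := sep_ctr k l h.symm
  have h1 : ctr k - ctr l ≠ 0 := by
    rw [← norm_pos_iff]; linarith
  have h2 := rz_sq (ε := ε l) h1
  have h3 := norm_ctr_sub_le k l
  have h4 : ‖rz (ε l) (ctr k - ctr l)‖ ≤ 5 := by
    have h5 : ‖rz (ε l) (ctr k - ctr l)‖ ^ 2 ≤ 5 ^ 2 := by
      rw [← norm_pow, h2]
      refine (norm_sub_le _ _).trans ?_
      rw [norm_pow]
      nlinarith
    exact le_of_sq_le_sq h5 (by norm_num)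
  have h6 : rz (ε l) (ctr k - ctr l) ≠ 0 := H598.rz_ne_zero (by nlinarith)
  unfold ps
  rw [norm_inv]
  have := one_div_le_one_div_of_le (norm_pos_iff.2 h6) h4
  simpa using this

/-- **the value of `a 0 + a 1 x` at a centre** -/
theorem exists_af0_ctr : ∃ C : ℝ, 0 ≤ C ∧ ∀ (ε c : E3) (k : Fin 3), ‖ε‖ < I0.rad →
    ∑ l, c l = 0 → ‖af0 ε c 0 + af0 ε c 1 * ctr k‖ ≤ C * (‖c k‖ + ‖ε k‖ * ‖c‖) := by
  obtain ⟨A, hA0, hA⟩ := H630.exists_Gf_sub sep_ctr ell0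
  refine ⟨25 * (1 + A), by positivity, fun ε c k hε hc => ?_⟩
  have h1 := (hA k ε 0 c hε (by norm_num)).2 hc
  have hsm : H517.Sm ε := H630.sm_of_rad sep_ctr ell0 hε.le
  have h2 : Gf sep_ctr ell0 k (ε, 0) c = (af0 ε c 0 + af0 ε c 1 * ctr k) *
      ∏ l ∈ Finset.univ.erase k, ps ctr ε l (ctr k) := by
    rw [H630.Gf_apply, Fin.sum_univ_two]
    show af0 ε c 0 * hn ctr ε 0 k 0 + af0 ε c 1 * hn ctr ε 1 k 0 = _
    unfold hn
    rw [add_zero, pow_zero, pow_one]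
    ring
  have h3 : 1 / 25 ≤ ‖∏ l ∈ Finset.univ.erase k, ps ctr ε l (ctr k)‖ := by
    rw [norm_prod]
    have h4 : ∏ l ∈ Finset.univ.erase k, (1 / 5 : ℝ) = 1 / 25 := by
      rw [Finset.prod_const, Finset.card_erase_of_mem (Finset.mem_univ k), Finset.card_univ,
        Fintype.card_fin]
      norm_num
    rw [← h4]
    refine Finset.prod_le_prod (fun _ _ => by norm_num) fun l hl => ?_
    refine norm_ps_ctr (Finset.ne_of_mem_erase hl) ?_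
    have := hsm l
    norm_num at this ⊢
    linarith
  set g : ℂ := af0 ε c 0 + af0 ε c 1 * ctr k with hg
  set P : ℂ := ∏ l ∈ Finset.univ.erase k, ps ctr ε l (ctr k) with hP
  rw [h2, norm_zero, zero_add] at h1
  have h5 : ‖g‖ * ‖P‖ ≤ ‖c k‖ + A * ‖ε k‖ * ‖c‖ := by
    rw [← norm_mul]
    have := norm_sub_norm_le (g * P) (c k)
    linarith
  have h6 : ‖g‖ * (1 / 25) ≤ ‖g‖ * ‖P‖ := mul_le_mul_of_nonneg_left h3 (norm_nonneg _)
  have h7 : 0 ≤ A * ‖c k‖ := by positivity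
  have h8 : 0 ≤ ‖ε k‖ * ‖c‖ := by positivity
  nlinarith

/-! ### the assembly -/

/-- the coefficients of the flat family at the theta configurations are `af0` of the residues -/
def IdA (A : (Fin 6 → ℝ) → Bs → (ℂ × ℂ →L[ℝ] ℝ)) : Prop :=
  ∃ N₀ : ℝ, 1 ≤ N₀ ∧ ∀ y α, BaseOk N₀ y α → ∀ ξ, IsCl ξ → ∀ u v : ℂ,
    A ξ (rootsL y α) (u, v) =
      (af0 (eps0 y α) (cc ξ y α) 0 * u + af0 (eps0 y α) (cc ξ y α) 1 * v).re

theorem vert_of (Φ : FlatFam) (hI : IdA Φ.A) : Vert (oneOf Φ) := by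
  obtain ⟨N1, hN1, hI⟩ := hI
  obtain ⟨K, N2, hK, hN2, hcc⟩ := H630.exists_cc
  obtain ⟨C, hC0, hC⟩ := exists_af0_ctr
  set N₀ := max N1 N2 with hN₀
  have hN1' : 1 ≤ N₀ := hN1.trans (le_max_left _ _)
  have hbd : 0 ≤ I0.bd := zero_le_one.trans I0.one_le_bd
  have hKV := KV_pos
  have key : ∀ y α, BaseOk N₀ y α → ∀ ξ, IsCl ξ → ∀ x v ζ : ℂ, v ^ 2 = ff (rootsL y α, x) →
      v ≠ 0 →
      |(oneOf Φ).η ξ false (rootsL y α, x) v (0, ζ)| ≤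
        16 * KV * I0.bd * ‖cc ξ y α‖ * (‖ζ‖ / H578.Hs (rootsL y α) x) ∧
      ∀ k, ‖x - ctr k‖ ≤ 1 / 4 →
      |(oneOf Φ).η ξ false (rootsL y α, x) v (0, ζ)| ≤
        KV * (C * (‖cc ξ y α k‖ + ‖eps0 y α k‖ * ‖cc ξ y α‖) +
          2 * (I0.bd * ‖cc ξ y α‖) * ‖x - ctr k‖) * (‖ζ‖ / H578.Hs (rootsL y α) x) := by
    intro y α hy ξ hξ x v ζ hv hv0
    have hy1 : BaseOk N1 y α := ⟨fun k => (le_max_left _ _).trans (hy.1 k), hy.2⟩
    have hy2 : BaseOk N2 y α := ⟨fun k => (le_max_right _ _).trans (hy.1 k), hy.2⟩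
    have hy0 : ∀ k, 0 ≤ y k := fun k => by linarith [hy.1 k]
    obtain ⟨⟨e1, -, -, -⟩, hc⟩ := hcc y α hy2
    obtain ⟨c1, -, -, -⟩ := hc ξ hξ
    have hb : rootsL y α ∈ H681.XX := H182.rootsL_mem hy0 hy.2
    have hd : ∀ k, ‖(1 / 16 : ℂ) * Complex.exp ((-(y k : ℂ) + (α k : ℂ) * Complex.I) / 2)‖ ≤
        1 / 16 := fun k => H630.norm_dL_le (hy0 k)
    have hA := hI y α hy1 ξ hξ
    have hs0 : 0 ≤ ‖ζ‖ / H578.Hs (rootsL y α) x := div_nonneg (norm_nonneg _) (H578.Hs_nonneg _ _)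
    have a0 := norm_af0_le e1 (cc ξ y α) 0
    have a1 := norm_af0_le e1 (cc ξ y α) 1
    rw [oneOf_false]
    refine ⟨(vert_all (Φ.flat ξ hξ) hd hb (a := (af0 (eps0 y α) (cc ξ y α) 0,
      af0 (eps0 y α) (cc ξ y α) 1)) hA hv hv0 ζ).trans ?_, fun k hk =>
      (vert_near (Φ.flat ξ hξ) hd hb (a := (af0 (eps0 y α) (cc ξ y α) 0,
      af0 (eps0 y α) (cc ξ y α) 1)) hA hv hv0 hk ζ).trans ?_⟩
    · refine mul_le_mul_of_nonneg_right ?_ hs0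
      have : 8 * KV * (‖af0 (eps0 y α) (cc ξ y α) 0‖ + ‖af0 (eps0 y α) (cc ξ y α) 1‖) ≤
          8 * KV * (I0.bd * ‖cc ξ y α‖ + I0.bd * ‖cc ξ y α‖) := by gcongr
      refine this.trans (le_of_eq ?_)
      ring
    · refine mul_le_mul_of_nonneg_right ?_ hs0
      refine mul_le_mul_of_nonneg_left ?_ hKV.le
      have := hC (eps0 y α) (cc ξ y α) k e1 c1
      exact add_le_add this (by gcongr)
  have hv : ∀ {y α x v}, H973.On1 false (rootsL y α, x) v → v ^ 2 = ff (rootsL y α, x) ∧ v ≠ 0 :=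
    fun h => ⟨by rw [h.1, H214.pol_false], h.2⟩
  have hcc' : ∀ y α, BaseOk N₀ y α → _ := fun y α hy =>
    hcc y α ⟨fun k => (le_max_right _ _).trans (hy.1 k), hy.2⟩
  refine ⟨⟨16 * KV * I0.bd * K, N₀, hN1', fun y α hy ξ hξ x v ζ h => ?_⟩,
    ⟨KV * (2 * (C * K) + 2 * I0.bd * K), N₀, hN1', fun y α hy ξ hξ x v ζ h k hk => ?_⟩,
    ⟨16 * KV * I0.bd * K, N₀, hN1', fun y α hy ξ hξ hb x v ζ h => ?_⟩⟩
  · have hs0 : 0 ≤ ‖ζ‖ / H578.Hs (rootsL y α) x :=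
      div_nonneg (norm_nonneg _) (H578.Hs_nonneg _ _)
    refine (key y α hy ξ hξ x v ζ (hv h).1 (hv h).2).1.trans ?_
    refine mul_le_mul_of_nonneg_right ?_ hs0
    have h1 := ((hcc' y α hy).2 ξ hξ).2.1
    have h2 : 0 ≤ 16 * KV * I0.bd := by positivity
    calc 16 * KV * I0.bd * ‖cc ξ y α‖ ≤ 16 * KV * I0.bd * (K * ‖ξ‖) :=
          mul_le_mul_of_nonneg_left h1 h2
      _ = 16 * KV * I0.bd * K * ‖ξ‖ := by ring
  · have hs0 : 0 ≤ ‖ζ‖ / H578.Hs (rootsL y α) x :=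
      div_nonneg (norm_nonneg _) (H578.Hs_nonneg _ _)
    refine ((key y α hy ξ hξ x v ζ (hv h).1 (hv h).2).2 k hk).trans ?_
    refine mul_le_mul_of_nonneg_right ?_ hs0
    have h1 := ((hcc' y α hy).2 ξ hξ).2.1
    have h2 := ((hcc' y α hy).2 ξ hξ).2.2.1 k
    have h3 := (hcc' y α hy).1.2.2.1 k
    have hyk : 0 < y k := by linarith [hy.1 k]
    set u : ℝ := 1 / y k with hu
    have hu0 : 0 ≤ u := one_div_nonneg.2 hyk.le
    have h6 : ‖ξ‖ / y k = ‖ξ‖ * u := by rw [hu]; ring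
    rw [h6] at h2
    set z : ℝ := ‖x - ctr k‖ with hz
    have hz0 : 0 ≤ z := norm_nonneg _
    have hb0 : 0 ≤ |bt ξ k| := abs_nonneg _
    have hK0 : 0 ≤ K := by linarith
    have hcn : 0 ≤ ‖cc ξ y α‖ := norm_nonneg _
    have g1 : C * (‖cc ξ y α k‖ + ‖eps0 y α k‖ * ‖cc ξ y α‖) ≤
        C * (K * (|bt ξ k| + ‖ξ‖ * u) + u * (K * ‖ξ‖)) := by gcongr
    have g2 : 2 * (I0.bd * ‖cc ξ y α‖) * z ≤ 2 * (I0.bd * (K * ‖ξ‖)) * z := by gcongr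
    calc KV * (C * (‖cc ξ y α k‖ + ‖eps0 y α k‖ * ‖cc ξ y α‖) + 2 * (I0.bd * ‖cc ξ y α‖) * z)
        ≤ KV * (C * (K * (|bt ξ k| + ‖ξ‖ * u) + u * (K * ‖ξ‖)) +
            2 * (I0.bd * (K * ‖ξ‖)) * z) :=
          mul_le_mul_of_nonneg_left (add_le_add g1 g2) hKV.le
      _ = KV * (C * K * |bt ξ k| + 2 * (C * K) * (‖ξ‖ * u) + 2 * I0.bd * K * (‖ξ‖ * z)) := by
          ring
      _ ≤ KV * ((2 * (C * K) + 2 * I0.bd * K) * |bt ξ k| +
            (2 * (C * K) + 2 * I0.bd * K) * (‖ξ‖ * u) +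
            (2 * (C * K) + 2 * I0.bd * K) * (‖ξ‖ * z)) := by
          have q1 : 0 ≤ C * K := by positivity
          have q2 : 0 ≤ I0.bd * K := by positivity
          have q3 : 0 ≤ ‖ξ‖ * u := by positivity
          have q4 : 0 ≤ ‖ξ‖ * z := by positivity
          refine mul_le_mul_of_nonneg_left ?_ hKV.le
          gcongr <;> nlinarith
      _ = KV * (2 * (C * K) + 2 * I0.bd * K) * (|bt ξ k| + ‖ξ‖ * (u + z)) := by ring
  · have hs0 : 0 ≤ ‖ζ‖ / H578.Hs (rootsL y α) x :=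
      div_nonneg (norm_nonneg _) (H578.Hs_nonneg _ _)
    refine (key y α hy ξ hξ x v ζ (hv h).1 (hv h).2).1.trans ?_
    refine mul_le_mul_of_nonneg_right ?_ hs0
    have h1 := ((hcc' y α hy).2 ξ hξ).2.2.2 hb
    have h2 : 0 ≤ 16 * KV * I0.bd := by positivity
    calc 16 * KV * I0.bd * ‖cc ξ y α‖ ≤ 16 * KV * I0.bd * (K * H562.ww ξ y) :=
          mul_le_mul_of_nonneg_left h1 h2
      _ = 16 * KV * I0.bd * K * H562.ww ξ y := by ring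

end

end Vale.Agent.P273.H97
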