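import Vale.Agent.P273.H214.Gauge
import Vale.Agent.P273.H578.Hsc

/-!
# P273, crew ASY0, (T3e): the vertical part of the cut-off form, general bound

For every flat form `η` with vertical part `A`: the vertical part of `etaP η A` is bounded by the
vertical part of `η` and by the functions which are cut off.
-/

namespace Vale.Agent.P273.H97

open scoped ContDiff Topology
open Set Filter MeasureTheory Finset
open H214 H604

noncomputable section

/-! ### the step -/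

theorem deriv_step_of_lt {t : ℝ} (h : t < 0) : deriv Real.smoothTransition t = 0 := by
  have h1 : Real.smoothTransition =ᶠ[𝓝 t] fun _ => (0 : ℝ) := by
    filter_upwards [gt_mem_nhds h] with s hs
    exact Real.smoothTransition.zero_of_nonpos (le_of_lt hs)
  rw [h1.deriv_eq, deriv_const]

theorem deriv_step_of_gt {t : ℝ} (h : 1 < t) : deriv Real.smoothTransition t = 0 := by
  have h1 : Real.smoothTransition =ᶠ[𝓝 t] fun _ => (1 : ℝ) := by
    filter_upwards [lt_mem_nhds h] with s hs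
    exact Real.smoothTransition.one_of_one_le (le_of_lt hs)
  rw [h1.deriv_eq, deriv_const]

/-- the derivative of the step is bounded -/
theorem exists_bound_step : ∃ C : ℝ, 0 < C ∧ ∀ t, |deriv Real.smoothTransition t| ≤ C := by
  have hc : Continuous (deriv Real.smoothTransition) :=
    (Real.smoothTransition.contDiff (n := 1)).continuous_deriv (by simp)
  obtain ⟨C, hC⟩ := (isCompact_Icc (a := (0 : ℝ)) (b := 1)).exists_bound_of_continuousOn
    hc.continuousOn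
  refine ⟨|C| + 1, by positivity, fun t => ?_⟩
  by_cases h : t ∈ Icc (0 : ℝ) 1
  · have := hC t h
    rw [Real.norm_eq_abs] at this
    linarith [le_abs_self C]
  · have h0 : deriv Real.smoothTransition t = 0 := by
      rcases not_and_or.1 h with h | h
      · exact deriv_step_of_lt (not_le.1 h)
      · exact deriv_step_of_gt (not_le.1 h)
    rw [h0, abs_zero]
    positivity

/-- the bound of the derivative of the step -/
def Cs : ℝ := exists_bound_step.choose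

theorem Cs_pos : 0 < Cs := exists_bound_step.choose_spec.1

theorem abs_deriv_step_le (t : ℝ) : |deriv Real.smoothTransition t| ≤ Cs :=
  exists_bound_step.choose_spec.2 t

theorem hasDerivAt_step (t : ℝ) :
    HasDerivAt Real.smoothTransition (deriv Real.smoothTransition t) t :=
  ((Real.smoothTransition.contDiff (n := 1)).differentiable (by simp) t).hasDerivAt

theorem hasFDerivAt_normSq_sub (a x : ℂ) :
    HasFDerivAt (fun z : ℂ => ‖z - a‖ ^ 2) (2 • (innerSL ℝ (x - a))) x := by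
  have h := ((hasFDerivAt_id (𝕜 := ℝ) x).sub_const a).norm_sq
  simpa using h

/-- vertical derivative of `chiW` -/
theorem abs_vert_chiW_le {b : Bs} (hb : b ∈ Cf) (j : Fin 6) (x ζ : ℂ) :
    |fderiv ℝ (fun p : Bs × ℂ => chiW p.1 j p.2) (b, x) (0, ζ)| ≤
      Cs * (128 * (‖x - b j‖ * ‖ζ‖) / hh b j) := by
  have hd := (contDiffAt_chiW hb j x).differentiableAt (by simp)
  rw [hasFDerivAt_vert hd (g := fun z => chiW b j z) (Eventually.of_forall fun _ => rfl)]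
  have h1 : HasFDerivAt (fun z : ℂ => 2 - 64 * ‖z - b j‖ ^ 2 / hh b j)
      (-((64 / hh b j) • (2 • (innerSL ℝ (x - b j))))) x := by
    have h2 := ((hasFDerivAt_normSq_sub (b j) x).const_mul (64 / hh b j)).const_sub 2
    refine h2.congr_of_eventuallyEq (Eventually.of_forall fun z => ?_)
    show 2 - 64 * ‖z - b j‖ ^ 2 / hh b j = 2 - 64 / hh b j * ‖z - b j‖ ^ 2
    ring
  have h3 := (hasDerivAt_step (2 - 64 * ‖x - b j‖ ^ 2 / hh b j)).comp_hasFDerivAt x h1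
  have h4 : fderiv ℝ (fun z => chiW b j z) x = _ := h3.fderiv
  rw [h4]
  have hp := hh_pos hb j
  simp only [smul_apply, neg_apply, innerSL_apply_apply, smul_eq_mul, nsmul_eq_mul,
    Nat.cast_ofNat]
  rw [abs_mul, abs_neg, abs_mul, abs_mul, abs_of_pos (by positivity : 0 < 64 / hh b j)]
  have h5 := abs_real_inner_le_norm (x - b j) ζ
  have h6 := abs_deriv_step_le (2 - 64 * ‖x - b j‖ ^ 2 / hh b j)
  have h7 : |(2 : ℝ)| = 2 := by norm_num
  rw [h7]
  calc _ ≤ Cs * (64 / hh b j * (2 * (‖x - b j‖ * ‖ζ‖))) := by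
        refine mul_le_mul h6 ?_ (by positivity) Cs_pos.le
        gcongr
    _ = _ := by ring

/-- vertical derivative of `chiI` -/
theorem abs_vert_chiI_le (b : Bs) (x ζ : ℂ) :
    |fderiv ℝ (fun p : Bs × ℂ => chiI p.1 p.2) (b, x) (0, ζ)| ≤
      Cs * (2 * (‖x‖ * ‖ζ‖) / Rr b ^ 2) := by
  have hd := (contDiff_chiI.contDiffAt (x := (b, x))).differentiableAt (by simp)
  rw [hasFDerivAt_vert hd (g := fun z => chiI b z) (Eventually.of_forall fun _ => rfl)]
  have hR := Rr_pos b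
  have h1 : HasFDerivAt (fun z : ℂ => ‖z‖ ^ 2 / Rr b ^ 2 - 1)
      ((Rr b ^ 2)⁻¹ • (2 • (innerSL ℝ x))) x := by
    have h2 := ((hasFDerivAt_normSq_sub 0 x).const_mul ((Rr b ^ 2)⁻¹)).sub_const 1
    simp only [sub_zero] at h2
    refine h2.congr_of_eventuallyEq (Eventually.of_forall fun z => ?_)
    show ‖z‖ ^ 2 / Rr b ^ 2 - 1 = (Rr b ^ 2)⁻¹ * ‖z‖ ^ 2 - 1
    ring
  have h3 := (hasDerivAt_step (‖x‖ ^ 2 / Rr b ^ 2 - 1)).comp_hasFDerivAt x h1
  have h4 : fderiv ℝ (fun z => chiI b z) x = _ := h3.fderiv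
  rw [h4]
  simp only [smul_apply, innerSL_apply_apply, smul_eq_mul, nsmul_eq_mul, Nat.cast_ofNat]
  rw [abs_mul, abs_mul, abs_mul, abs_of_pos (by positivity : 0 < (Rr b ^ 2)⁻¹)]
  have h5 := abs_real_inner_le_norm x ζ
  have h6 := abs_deriv_step_le (‖x‖ ^ 2 / Rr b ^ 2 - 1)
  have h7 : |(2 : ℝ)| = 2 := by norm_num
  rw [h7]
  calc _ ≤ Cs * ((Rr b ^ 2)⁻¹ * (2 * (‖x‖ * ‖ζ‖))) := by
        refine mul_le_mul h6 ?_ (by positivity) Cs_pos.le
        gcongr
    _ = _ := by ring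

/-- the vertical derivative of `chiI` vanishes far out -/
theorem vert_chiI_eq_zero {b : Bs} {x : ℂ} (h : 2 * Rr b ^ 2 < ‖x‖ ^ 2) (ζ : ℂ) :
    fderiv ℝ (fun p : Bs × ℂ => chiI p.1 p.2) (b, x) (0, ζ) = 0 := by
  have hd := (contDiff_chiI.contDiffAt (x := (b, x))).differentiableAt (by simp)
  rw [hasFDerivAt_vert hd (g := fun z => chiI b z) (Eventually.of_forall fun _ => rfl)]
  have h1 : (fun z => chiI b z) =ᶠ[𝓝 x] fun _ => (1 : ℝ) := by
    have h2 : Continuous fun z : ℂ => ‖z‖ ^ 2 := by fun_prop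
    filter_upwards [h2.continuousAt.eventually (lt_mem_nhds h)] with z hz
    exact chiI_eq_one hz.le
  rw [h1.fderiv_eq, fderiv_fun_const]
  rfl

variable {H : Type*} [NormedAddCommGroup H] [NormedSpace ℝ H]
variable {η : Bs → ℂ → ℂ → (Bs × ℂ →L[ℝ] H)} {A : Bs → (ℂ × ℂ →L[ℝ] H)} {O : Set Bs}

/-- the vertical derivative of `A (EIv)` along a branch -/
theorem vert_EIv {p : Bs × ℂ} (hx : p.2 ≠ 0) (hp : (p.1, p.2⁻¹) ∈ DI)
    (hA : ContDiffAt ℝ ∞ A p.1) {Y : Bs × ℂ → ℂ} (hY : IsBr Y p) (ζ : ℂ) :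
    fderiv ℝ (fun q : Bs × ℂ => A q.1 (EIv q.1 q.2 (Y q))) p (0, ζ) =
      A p.1 (ζ / Y p, p.2 * ζ / Y p) := by
  obtain ⟨b, x⟩ := p
  have hd : DifferentiableAt ℝ (fun q : Bs × ℂ => A q.1 (EIv q.1 q.2 (Y q))) (b, x) :=
    ((contDiffAt_A hA).clm_apply (contDiffAt_EIv hx hp hY.smooth hY.ne_zero)).differentiableAt
      (by simp)
  rw [hasFDerivAt_vert hd (g := fun z => A b (EIv b z (Y (b, z))))
    (Eventually.of_forall fun _ => rfl)]
  have hcont : Continuous fun z : ℂ => ((b, z) : Bs × ℂ) := by fun_prop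
  have hYc : ContinuousAt (fun z : ℂ => Y (b, z)) x :=
    ContinuousAt.comp (g := Y) (f := fun z : ℂ => ((b, z) : Bs × ℂ)) hY.cont hcont.continuousAt
  have hY2 : ∀ᶠ z in 𝓝 x, Y (b, z) ^ 2 = ∏ i, (z - b i) :=
    hcont.continuousAt.eventually hY.sq
  have h1 : ∀ k, k ≤ 1 → HasDerivAt (fun z => EIc k b z (Y (b, z))) (x ^ k / Y (b, x)) x :=
    fun k hk => hasDerivAt_EIc hk hx hp hYc hY2
  have h2 : HasFDerivAt (fun z : ℂ => EIv b z (Y (b, z)))
      (((ContinuousLinearMap.toSpanSingleton ℂ (x ^ 0 / Y (b, x))).restrictScalars ℝ).prod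
        ((ContinuousLinearMap.toSpanSingleton ℂ (x ^ 1 / Y (b, x))).restrictScalars ℝ)) x :=
    ((h1 0 (by norm_num)).hasFDerivAt.restrictScalars ℝ).prodMk
      ((h1 1 le_rfl).hasFDerivAt.restrictScalars ℝ)
  have h3 := (A b).hasFDerivAt.comp x h2
  have h4 : fderiv ℝ (fun z => A b (EIv b z (Y (b, z)))) x = _ := h3.fderiv
  rw [h4]
  simp only [ContinuousLinearMap.comp_apply, ContinuousLinearMap.prod_apply,
    ContinuousLinearMap.coe_restrictScalars', ContinuousLinearMap.toSpanSingleton_apply, smul_eq_mul]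
  congr 1
  simp only [Prod.mk.injEq]
  constructor <;> ring

/-- one summand of the cut-off part, at a root: a multiple `c` of the vertical part of the flat
form and the derivative of the cut-off -/
theorem vert_cutW (hb : ∀ b ∈ O, ContDiffAt ℝ ∞ A b) (hO : O ⊆ Cf) (j : Fin 6) {p : Bs × ℂ}
    (hp : p.1 ∈ O) {Y : Bs × ℂ → ℂ} (hY : IsBr Y p) (ζ : ℂ) :
    ∃ c ∈ Icc (0 : ℝ) 1,
      ‖fderiv ℝ (fun q : Bs × ℂ => chiW q.1 j q.2 • A q.1 (EWv q.1 j q.2 (Y q))) p (0, ζ) -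
        c • A p.1 (ζ / Y p, p.2 * ζ / Y p)‖ ≤
      if 32 * ‖p.2 - p.1 j‖ ^ 2 ≤ hh p.1 j then
        Cs * (128 * (‖p.2 - p.1 j‖ * ‖ζ‖) / hh p.1 j) * ‖A p.1 (EWv p.1 j p.2 (Y p))‖ else 0 := by
  obtain ⟨b, x⟩ := p
  have hC : b ∈ Cf := hO hp
  have hpos := hh_pos hC j
  by_cases h : 32 * ‖x - b j‖ ^ 2 ≤ hh b j
  · have h4 : 4 * ‖x - b j‖ ^ 2 < hh b j := by nlinarith [sq_nonneg ‖x - b j‖]
    have hD : (b, x) ∈ Dj j := mem_Dj_of_hh hC h4
    have hx : x ≠ b j := by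
      rintro rfl
      exact (ff_ne_zero_iff.1 hY.ne) j rfl
    have h1 := (contDiffAt_chiW hC j x).differentiableAt (n := ∞) (by simp)
    have h2 : DifferentiableAt ℝ (fun q : Bs × ℂ => A q.1 (EWv q.1 j q.2 (Y q))) (b, x) :=
      ((contDiffAt_A (hb b hp)).clm_apply
        (contDiffAt_EWv hD hY.smooth hY.ne_zero)).differentiableAt (by simp)
    refine ⟨chiW b j x, ⟨chiW_nonneg _ _ _, chiW_le_one _ _ _⟩, ?_⟩
    rw [if_pos h, fderiv_fun_smul h1 h2]
    simp only [add_apply, smul_apply, ContinuousLinearMap.smulRight_apply]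
    rw [vert_EWv hD hx (hb b hp) hY, add_sub_cancel_left, norm_smul, Real.norm_eq_abs]
    exact mul_le_mul_of_nonneg_right (abs_vert_chiW_le hC j x ζ) (norm_nonneg _)
  · have h1 : hh b j < 32 * ‖x - b j‖ ^ 2 := not_le.1 h
    refine ⟨0, ⟨le_rfl, zero_le_one⟩, ?_⟩
    rw [if_neg h]
    have h2 : (fun q : Bs × ℂ => chiW q.1 j q.2 • A q.1 (EWv q.1 j q.2 (Y q))) =ᶠ[𝓝 (b, x)]
        fun _ => (0 : H) := by
      filter_upwards [chiW_eventually_zero (p := (b, x)) hC h1] with q hq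
      rw [hq, zero_smul]
    rw [h2.fderiv_eq, fderiv_fun_const]
    simp

/-- the summand at infinity -/
theorem vert_cutI (hb : ∀ b ∈ O, ContDiffAt ℝ ∞ A b) {p : Bs × ℂ}
    (hp : p.1 ∈ O) {Y : Bs × ℂ → ℂ} (hY : IsBr Y p) (ζ : ℂ) :
    ∃ c ∈ Icc (0 : ℝ) 1,
      ‖fderiv ℝ (fun q : Bs × ℂ => chiI q.1 q.2 • A q.1 (EIv q.1 q.2 (Y q))) p (0, ζ) -
        c • A p.1 (ζ / Y p, p.2 * ζ / Y p)‖ ≤
      if Rr p.1 ≤ ‖p.2‖ ∧ ‖p.2‖ ^ 2 ≤ 2 * Rr p.1 ^ 2 then
        Cs * (2 * (‖p.2‖ * ‖ζ‖) / Rr p.1 ^ 2) * ‖A p.1 (EIv p.1 p.2 (Y p))‖ else 0 := by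
  obtain ⟨b, x⟩ := p
  have hR := Rr_pos b
  by_cases h : Rr b ≤ ‖x‖
  · have hx : x ≠ 0 := by
      rintro rfl
      rw [norm_zero] at h; linarith
    have hD : (b, x⁻¹) ∈ DI := mem_DI_inv (two_mul_norm_lt h)
    have h1 : DifferentiableAt ℝ (fun q : Bs × ℂ => chiI q.1 q.2) (b, x) :=
      contDiff_chiI.differentiable (by simp) (b, x)
    have h2 : DifferentiableAt ℝ (fun q : Bs × ℂ => A q.1 (EIv q.1 q.2 (Y q))) (b, x) :=
      ((contDiffAt_A (p := (b, x)) (hb b hp)).clm_apply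
        (contDiffAt_EIv (p := (b, x)) hx hD hY.smooth hY.ne_zero)).differentiableAt (by simp)
    refine ⟨chiI b x, ⟨chiI_nonneg _ _, chiI_le_one _ _⟩, ?_⟩
    rw [fderiv_fun_smul h1 h2]
    simp only [add_apply, smul_apply, ContinuousLinearMap.smulRight_apply]
    rw [vert_EIv (p := (b, x)) hx hD (hb b hp) hY, add_sub_cancel_left, norm_smul,
      Real.norm_eq_abs]
    by_cases h3 : ‖x‖ ^ 2 ≤ 2 * Rr b ^ 2
    · rw [if_pos ⟨h, h3⟩]
      exact mul_le_mul_of_nonneg_right (abs_vert_chiI_le b x ζ) (norm_nonneg _)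
    · rw [if_neg (fun h4 => h3 h4.2), vert_chiI_eq_zero (not_le.1 h3)]
      simp
  · refine ⟨0, ⟨le_rfl, zero_le_one⟩, ?_⟩
    rw [if_neg (fun h4 => h h4.1)]
    have h2 : (fun q : Bs × ℂ => chiI q.1 q.2 • A q.1 (EIv q.1 q.2 (Y q))) =ᶠ[𝓝 (b, x)]
        fun _ => (0 : H) := by
      filter_upwards [chiI_eventually_zero (p := (b, x)) (not_le.1 h)] with q hq
      rw [hq, zero_smul]
    rw [h2.fderiv_eq, fderiv_fun_const]
    simp

/-- **the vertical part of the cut-off form** -/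
theorem norm_etaP_vert_le (hF : FlatOn O η A) {b : Bs} (hb : b ∈ O) {x y : ℂ}
    (hy : y ^ 2 = ff (b, x)) (hy0 : y ≠ 0) (ζ : ℂ) :
    ‖etaP η A b x y (0, ζ)‖ ≤ 8 * ‖A b (ζ / y, x * ζ / y)‖ +
      (∑ j, if 32 * ‖x - b j‖ ^ 2 ≤ hh b j then
        Cs * (128 * (‖x - b j‖ * ‖ζ‖) / hh b j) * ‖A b (EWv b j x y)‖ else 0) +
      (if Rr b ≤ ‖x‖ ∧ ‖x‖ ^ 2 ≤ 2 * Rr b ^ 2 then
        Cs * (2 * (‖x‖ * ‖ζ‖) / Rr b ^ 2) * ‖A b (EIv b x y)‖ else 0) := by
  have hff : ff (b, x) ≠ 0 := by rw [← hy]; exact pow_ne_zero _ hy0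
  have hY := isBr_Ybr hff hy
  have hYp : Ybr (b, x) y (b, x) = y := Ybr_self hff y
  have h1 : ∀ j, DifferentiableAt ℝ
      (fun q : Bs × ℂ => chiW q.1 j q.2 • A q.1 (EWv q.1 j q.2 (Ybr (b, x) y q))) (b, x) :=
    fun j => (contDiffAt_cutW j (hF.sub hb) (hF.smoothA b hb) hY).differentiableAt (by simp)
  have h2 : DifferentiableAt ℝ
      (fun q : Bs × ℂ => chiI q.1 q.2 • A q.1 (EIv q.1 q.2 (Ybr (b, x) y q))) (b, x) :=
    (contDiffAt_cutI (hF.smoothA b hb) hY).differentiableAt (by simp)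
  choose c hc hcb using fun j => vert_cutW hF.smoothA hF.sub j (p := (b, x)) hb hY ζ
  obtain ⟨d, hd, hdb⟩ := vert_cutI hF.smoothA (p := (b, x)) hb hY ζ
  simp only [hYp] at hcb hdb
  set a : H := A b (ζ / y, x * ζ / y) with ha
  have h3 : etaP η A b x y (0, ζ) = (1 - ∑ j, c j - d) • a -
      (∑ j, (fderiv ℝ (fun q : Bs × ℂ => chiW q.1 j q.2 •
        A q.1 (EWv q.1 j q.2 (Ybr (b, x) y q))) (b, x) (0, ζ) - c j • a)) -
      (fderiv ℝ (fun q : Bs × ℂ => chiI q.1 q.2 • A q.1 (EIv q.1 q.2 (Ybr (b, x) y q)))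
        (b, x) (0, ζ) - d • a) := by
    unfold etaP dcut Ecut
    rw [sub_apply, hF.vert b hb x y hy hy0, fderiv_fun_add (DifferentiableAt.fun_sum fun j _ => h1 j)
      h2, fderiv_fun_sum fun j _ => h1 j]
    rw [add_apply, _root_.sum_apply, Finset.sum_sub_distrib, ← Finset.sum_smul]
    rw [← ha]
    module
  rw [h3]
  refine (norm_sub_le _ _).trans (add_le_add ((norm_sub_le _ _).trans (add_le_add ?_ ?_)) hdb)
  · rw [norm_smul]
    refine mul_le_mul_of_nonneg_right ?_ (norm_nonneg _)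
    rw [Real.norm_eq_abs, abs_le]
    have h4 : 0 ≤ ∑ j, c j := Finset.sum_nonneg fun j _ => (hc j).1
    have h5 : ∑ j, c j ≤ 6 := by
      calc ∑ j, c j ≤ ∑ _j : Fin 6, (1 : ℝ) := Finset.sum_le_sum fun j _ => (hc j).2
        _ = 6 := by simp
    constructor
    · linarith [hd.2]
    · linarith [hd.1]
  · exact norm_sum_le_of_le _ fun j _ => hcb j

end

end Vale.Agent.P273.H97
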