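import Vale.Agent.P273.H97.Vert
import Vale.Agent.P273.H908.IdF
import Vale.Agent.P273.H580.The

/-!
# P273, ASY0 (T3e): `Vert theOne`
-/

namespace Vale.Agent.P273.H97

open Vale.Agent.P273.H580 (theFlatFam theOne AX)
open Vale.Agent.P273.H803 (Vert)

theorem idA_AX : IdA AX := by
  obtain ⟨N₀, hN, h⟩ := H908.exists_theta
  exact ⟨N₀, hN, fun y α hy ξ hξ u v => ((h y α hy).2.2 ξ hξ).1 u v⟩

theorem vert_theOne : Vert theOne := vert_of theFlatFam idA_AX

end Vale.Agent.P273.H97
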